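import Vale.Agent.P301Z.Li.Basis
import Vale.Agent.P301Z.Lat.Defs

/-! P301, block LIN: the forms `qR`, `qC` as bilinear maps. -/

open scoped Topology Matrix
open Filter Set

noncomputable section

namespace Vale.Agent.P301Z.Li

open Vale.Agent.P301Z.Lat

variable {r : ℕ}

/-- the real form as a bilinear map -/
def QR (q : Matrix (Fin r) (Fin r) ℤ) : (Fin r → ℝ) →ₗ[ℝ] (Fin r → ℝ) →ₗ[ℝ] ℝ :=
  Matrix.toLinearMap₂' ℝ (q.map (Int.cast : ℤ → ℝ))

/-- the complex form as a bilinear map -/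
def QC (q : Matrix (Fin r) (Fin r) ℤ) : (Fin r → ℂ) →ₗ[ℂ] (Fin r → ℂ) →ₗ[ℂ] ℂ :=
  Matrix.toLinearMap₂' ℂ (q.map (Int.cast : ℤ → ℂ))

variable (q : Matrix (Fin r) (Fin r) ℤ)

theorem qR_eq (x y : Fin r → ℝ) : qR q x y = QR q x y := by
  simp only [qR, QR, Matrix.toLinearMap₂'_apply, Matrix.map_apply, smul_eq_mul]
  exact Finset.sum_congr rfl fun i _ => Finset.sum_congr rfl fun j _ => by ring

theorem qC_eq (x y : Fin r → ℂ) : qC q x y = QC q x y := by
  simp only [qC, QC, Matrix.toLinearMap₂'_apply, Matrix.map_apply, smul_eq_mul]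
  exact Finset.sum_congr rfl fun i _ => Finset.sum_congr rfl fun j _ => by ring

theorem qC_rc (x y : Fin r → ℝ) : qC q (rc x) (rc y) = (qR q x y : ℝ) := by
  simp [qC, qR, rc]

theorem QC_rc (x y : Fin r → ℝ) : QC q (rc x) (rc y) = (QR q x y : ℝ) := by
  rw [← qC_eq, ← qR_eq, qC_rc]

variable {q}

theorem qR_symm (h : qᵀ = q) (x y : Fin r → ℝ) : qR q x y = qR q y x := by
  unfold qR
  rw [Finset.sum_comm]
  refine Finset.sum_congr rfl fun i _ => Finset.sum_congr rfl fun j _ => ?_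
  rw [show q j i = q i j from congrFun (congrFun h i) j, mul_comm (x j)]

theorem qC_symm (h : qᵀ = q) (x y : Fin r → ℂ) : qC q x y = qC q y x := by
  unfold qC
  rw [Finset.sum_comm]
  refine Finset.sum_congr rfl fun i _ => Finset.sum_congr rfl fun j _ => ?_
  rw [show q j i = q i j from congrFun (congrFun h i) j, mul_comm (x j)]

theorem QR_symm (h : qᵀ = q) (x y : Fin r → ℝ) : QR q x y = QR q y x := by
  rw [← qR_eq, ← qR_eq, qR_symm h]

theorem QC_symm (h : qᵀ = q) (x y : Fin r → ℂ) : QC q x y = QC q y x := by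
  rw [← qC_eq, ← qC_eq, qC_symm h]

variable (q)

theorem QR_rt (x y : Fin r → ℝ) (hx : Rt x) (hy : Rt y) : QR q x y ∈ KQ := by
  rw [← qR_eq]
  exact KQ.sum_mem fun i _ => KQ.sum_mem fun j _ =>
    KQ.mul_mem ⟨q i j, by simp⟩ (KQ.mul_mem (hx i) (hy j))

theorem QR_cont : Continuous fun p : (Fin r → ℝ) × (Fin r → ℝ) => QR q p.1 p.2 := by
  simp only [← qR_eq, qR]
  fun_prop

theorem QC_cont : Continuous fun p : (Fin r → ℂ) × (Fin r → ℂ) => QC q p.1 p.2 := by
  simp only [← qC_eq, qC]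
  fun_prop

theorem rt_zr (l : Fin r → ℤ) : Rt (zr l) := fun i => ⟨l i, by simp [zr]⟩

theorem rc_add (x y : Fin r → ℝ) : rc (x + y) = rc x + rc y := by
  ext i
  simp [rc]

theorem rc_sub (x y : Fin r → ℝ) : rc (x - y) = rc x - rc y := by
  ext i
  simp [rc]

theorem rc_smul (c : ℝ) (x : Fin r → ℝ) : rc (c • x) = (c : ℂ) • rc x := by
  ext i
  simp [rc]

theorem rc_sum {ι : Type} (s : Finset ι) (x : ι → Fin r → ℝ) :
    rc (∑ i ∈ s, x i) = ∑ i ∈ s, rc (x i) := by
  ext j
  simp [rc]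

theorem star_rc (x : Fin r → ℝ) : star (rc x) = rc x := by
  ext i
  simp [rc]

/-- the real part of a vector -/
def reV (p : Fin r → ℂ) : Fin r → ℝ := fun i => (p i).re

/-- the imaginary part of a vector -/
def imV (p : Fin r → ℂ) : Fin r → ℝ := fun i => (p i).im

theorem re_add_im (p : Fin r → ℂ) : p = rc (reV p) + Complex.I • rc (imV p) := by
  ext i
  simp only [rc, reV, imV, Pi.add_apply, Pi.smul_apply, smul_eq_mul]
  rw [mul_comm, Complex.re_add_im]

theorem star_eq (p : Fin r → ℂ) : star p = rc (reV p) - Complex.I • rc (imV p) := by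
  ext i
  simp only [rc, reV, imV, Pi.sub_apply, Pi.smul_apply, smul_eq_mul, Pi.star_apply]
  apply Complex.ext <;> simp

theorem QC_rc_right (p : Fin r → ℂ) (x : Fin r → ℝ) :
    QC q p (rc x) = (QR q (reV p) x : ℝ) + Complex.I * (QR q (imV p) x : ℝ) := by
  conv_lhs => rw [re_add_im p]
  simp [QC_rc]

theorem perp_of {p : Fin r → ℂ} {x : Fin r → ℝ} (h : QC q p (rc x) = 0) :
    QR q (reV p) x = 0 ∧ QR q (imV p) x = 0 := by
  rw [QC_rc_right] at h
  have h1 := congrArg Complex.re h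
  have h2 := congrArg Complex.im h
  simpa using And.intro h1 h2

variable {q}

theorem iso_of (hq : qᵀ = q) {p : Fin r → ℂ} (h : QC q p p = 0) :
    QR q (reV p) (reV p) = QR q (imV p) (imV p) ∧ QR q (reV p) (imV p) = 0 := by
  rw [re_add_im p] at h
  simp only [map_add, map_smul, LinearMap.add_apply, LinearMap.smul_apply, QC_rc, smul_eq_mul,
    QR_symm hq (imV p) (reV p)] at h
  have h1 := congrArg Complex.re h
  have h2 := congrArg Complex.im h
  simp at h1 h2
  constructor <;> linarith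

theorem herm_eq (hq : qᵀ = q) (p : Fin r → ℂ) :
    QC q p (star p) = ((QR q (reV p) (reV p) + QR q (imV p) (imV p) : ℝ) : ℂ) := by
  rw [star_eq]
  conv_lhs => arg 1; rw [re_add_im p]
  simp only [map_add, map_sub, map_smul, LinearMap.add_apply, LinearMap.smul_apply, QC_rc,
    smul_eq_mul, QR_symm hq (imV p) (reV p)]
  apply Complex.ext <;> simp

end Vale.Agent.P301Z.Li
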