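import Vale.Agent.P301Z.Li.Slice
import Vale.Agent.P301Z.Sk

/-! P301, block LIN: the frame and the slice. -/

open scoped Topology Matrix
open Filter Set Metric Complex

noncomputable section

namespace Vale.Agent.P301Z.Li

open Vale.Agent.P301Z.Lat

variable {n r : ℕ}

theorem li_rc {b : ℕ} {h : Fin b → Fin r → ℝ} (hh : LinearIndependent ℝ h) :
    LinearIndependent ℂ fun a => rc (h a) := by
  rw [Fintype.linearIndependent_iff] at hh ⊢
  intro g hg a
  have h1 : ∑ a, (g a).re • h a = 0 := by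
    ext i
    have := congrArg re (congrFun hg i)
    simpa [rc, Finset.sum_apply] using this
  have h2 : ∑ a, (g a).im • h a = 0 := by
    ext i
    have := congrArg im (congrFun hg i)
    simpa [rc, Finset.sum_apply] using this
  exact Complex.ext (hh _ h1 a) (hh _ h2 a)

theorem span_rc {b : ℕ} {h : Fin b → Fin r → ℝ} {x : Fin r → ℝ}
    (hx : x ∈ Submodule.span ℝ (range h)) :
    rc x ∈ Submodule.span ℂ (range fun a => rc (h a)) := by
  obtain ⟨y, rfl⟩ := (Submodule.mem_span_range_iff_exists_fun ℝ).1 hx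
  rw [rc_sum]
  refine Submodule.sum_mem _ fun a _ => ?_
  rw [rc_smul]
  exact Submodule.smul_mem _ _ (Submodule.subset_span ⟨a, rfl⟩)

theorem kap_real {b : ℕ} (h : Fin b → Fin r → ℝ) (x : ℝ) (y : Fin b → ℝ) :
    kap (fun a => rc (h a)) (fun i => ((Fin.cons x y : Fin (b + 1) → ℝ) i : ℂ)) =
      rc (∑ a, y a • h a) := by
  simp [kap, rc_sum, rc_smul]

theorem cpow_real {t : ℝ} (ht : 0 ≤ t) : (t : ℂ) ^ (2⁻¹ : ℂ) = (√t : ℝ) := by
  rw [Real.sqrt_eq_rpow, ofReal_cpow ht]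
  norm_num

/-- the slice of a frame -/
theorem slice {B : BB n r} (F : P301Z.Fr B) {N : Set (Fin r → ℂ)} {N' : Set (Fin r → ℝ)}
    {κ : Fin r → ℝ} {μ T c₁ : ℝ} (h1 : QR B.q κ (zr F.l) = 0) (h2 : QR B.q κ (zr F.v) = 0)
    (h3 : QR B.q κ (zr F.m) = 0) (hμ : 0 < μ) (hκ : QR B.q κ κ = μ ^ 2 * F.e) (hT : 0 < T)
    (hc : 0 < c₁) (hN : N ∈ 𝓝 (rc κ - (I * μ) • rc (zr F.v)))
    (hN' : N' ∈ 𝓝 (c₁ • F.re (T * I))) : Nonempty (Slice F N N') := by
  have sy := QR_symm B.symm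
  have he := F.epos
  have hD := F.Dpos
  have ll : QR B.q (zr F.l) (zr F.l) = 0 := by rw [← qR_eq, F.ll]
  have vl : QR B.q (zr F.v) (zr F.l) = 0 := by rw [sy, ← qR_eq, F.lv]
  have vv : QR B.q (zr F.v) (zr F.v) = F.e := by rw [← qR_eq, F.vv]
  have ml : QR B.q (zr F.m) (zr F.l) = F.D := by rw [sy, ← qR_eq, F.lm]
  have mv : QR B.q (zr F.m) (zr F.v) = 0 := by rw [← qR_eq, F.mv]
  have mm : QR B.q (zr F.m) (zr F.m) = 0 := by rw [← qR_eq, F.mm]
  obtain ⟨b, h, hp, hli, hsp⟩ := basis (QR B.q) sy (QR_rt B.q) (rt_zr F.l) (rt_zr F.v) (rt_zr F.m)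
    ll vl (by rw [vv]; exact he.ne') (by rw [ml]; exact hD.ne') mv mm
  have G : Fr (QC B.q) (rc (zr F.l)) (rc (zr F.v)) (rc (zr F.m)) fun a => rc (zr (h a)) := by
    refine ⟨QC_symm B.symm, ?_, ?_, ?_, ?_, ?_, ?_, fun a => ?_, fun a => ?_, fun a => ?_,
      li_rc hli, fun κ' k1 k2 k3 => ?_⟩
    · simp [QC_rc, ll]
    · simp [QC_rc, vl]
    · simp [QC_rc, mv]
    · simp [QC_rc, mm]
    · simp [QC_rc, vv, he.ne']
    · simp [QC_rc, ml, hD.ne']
    · rw [QC_rc, ofReal_eq_zero]; exact (hp a).1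
    · rw [QC_rc, ofReal_eq_zero]; exact (hp a).2.1
    · rw [QC_rc, ofReal_eq_zero]; exact (hp a).2.2
    · rw [re_add_im κ']
      exact Submodule.add_mem _
        (span_rc (hsp _ (perp_of _ k1).1 (perp_of _ k2).1 (perp_of _ k3).1))
        (Submodule.smul_mem _ _
          (span_rc (hsp _ (perp_of _ k1).2 (perp_of _ k2).2 (perp_of _ k3).2)))
  obtain ⟨y₁, hy₁⟩ := (Submodule.mem_span_range_iff_exists_fun ℝ).1 (hsp κ h1 h2 h3)
  have hy₁' : ∑ a, y₁ a • zr (h a) = κ := hy₁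
  set H : Fin b → Fin r → ℂ := fun a => rc (zr (h a)) with hH
  let p : Fin (b + 1) → ℝ := Fin.cons 0 y₁
  let u₁ : Fin (b + 1) → ℂ := fun i => (p i : ℂ)
  let J := sl (QC B.q) (rc (zr F.l)) (rc (zr F.v)) (rc (zr F.m)) H
  let f : (Fin (b + 1) → ℂ) → ℂ := fun u =>
    QC B.q (kap H u) (kap H u) / QC B.q (rc (zr F.v)) (rc (zr F.v))
  have fr : ∀ (x : ℝ) (y : Fin b → ℝ), f (fun i => ((Fin.cons x y : Fin (b + 1) → ℝ) i : ℂ)) =
      ((QR B.q (∑ a, y a • zr (h a)) (∑ a, y a • zr (h a)) / F.e : ℝ) : ℂ) := fun x y => by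
    simp only [f, hH, kap_real, QC_rc, vv, ofReal_div]
  have f1 : f u₁ = ((μ ^ 2 : ℝ) : ℂ) := by
    rw [fr, hy₁', hκ, mul_div_cancel_right₀ _ he.ne']
  have m1 : mu (QC B.q) (rc (zr F.v)) H u₁ = μ := by
    show f u₁ ^ (2⁻¹ : ℂ) = μ
    rw [f1, cpow_real (by positivity), Real.sqrt_sq hμ.le]
  have J1 : J u₁ = rc κ - (I * μ) • rc (zr F.v) := by
    simp only [J, sl, m1]
    rw [show kap H u₁ = rc κ by rw [← hy₁']; exact kap_real _ _ _]
    simp [u₁, p]
  have cf : ContinuousAt f u₁ := (diff_Qd (diff_kap u₁) (diff_kap u₁) _).continuousAt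
  have E1 : ∀ᶠ u in 𝓝 u₁, 0 < (f u).re :=
    (continuous_re.continuousAt.comp cf).eventually
      (lt_mem_nhds (by show 0 < (f u₁).re; rw [f1, ofReal_re]; positivity))
  have E2 : ∀ᶠ u in 𝓝 u₁, J u ∈ N := by
    have : ContinuousAt J u₁ := (diff_sl (Or.inl E1.self_of_nhds)).continuousAt
    exact this.eventually (p := fun x => x ∈ N) (by rw [J1]; exact hN)
  have E3 : ∀ᶠ u in 𝓝 u₁, c₁ • F.re ((u 0).re + T * I) ∈ N' := by
    have : Continuous fun u : Fin (b + 1) → ℂ => c₁ • F.re ((u 0).re + T * I) := by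
      unfold P301Z.Fr.re P301Z.Fr.p
      fun_prop
    refine this.continuousAt.eventually (p := fun x => x ∈ N') ?_
    simpa [u₁, p] using hN'
  obtain ⟨ρ, hρ, hb⟩ := Metric.eventually_nhds_iff_ball.1 (E1.and (E2.and E3))
  refine ⟨{ b := b, p := p, ρ := ρ, pos := hρ, J := J
            kk := fun y => (√(QR B.q (∑ a, y a • zr (h a)) (∑ a, y a • zr (h a)) / F.e))⁻¹ •
              ∑ a, y a • zr (h a)
            T₀ := T, T0 := hT, c₁ := c₁, c1 := hc
            hol := fun u hu => (diff_sl (Or.inl (hb u hu).1)).differentiableWithinAt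
            maps := fun u hu => ⟨(hb u hu).2.1, by rw [qC_eq]; exact G.sl_sl u,
              by rw [qC_eq]; exact G.sl_l u⟩
            real := fun x y hx hy => ?_
            opn := ?_ }⟩
  · have hm : (fun i => ((Fin.cons x y : Fin (b + 1) → ℝ) i : ℂ)) ∈ ball u₁ ρ := by
      rw [mem_ball, dist_pi_lt_iff hρ]
      intro i
      rw [dist_eq, ← ofReal_sub, norm_real, Real.norm_eq_abs]
      exact Fin.cases hx hy i
    obtain ⟨a1, -, a3⟩ := hb _ hm
    rw [fr, ofReal_re] at a1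
    set K := ∑ a, y a • zr (h a) with hK
    have hs : 0 < √(QR B.q K K / F.e) := Real.sqrt_pos.2 a1
    have hs2 : √(QR B.q K K / F.e) ^ 2 = QR B.q K K / F.e := Real.sq_sqrt a1.le
    have perp : ∀ w, (∀ a, QR B.q (zr (h a)) w = 0) → QR B.q K w = 0 := fun w hw => by
      simp [hK, map_sum, LinearMap.sum_apply, hw]
    refine ⟨⟨?_, ?_, ?_, ?_⟩, by simpa using a3, (√(QR B.q K K / F.e) : ℝ), by simp [hs.ne'], ?_⟩
    · simp [qR_eq, perp _ fun a => (hp a).1]
    · simp [qR_eq, perp _ fun a => (hp a).2.2]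
    · simp [qR_eq, perp _ fun a => (hp a).2.1]
    · simp only [qR_eq, map_smul, LinearMap.smul_apply, smul_eq_mul]
      rw [eq_div_iff he.ne'] at hs2
      field_simp
      linarith
    · have m2 : mu (QC B.q) (rc (zr F.v)) H
          (fun i => ((Fin.cons x y : Fin (b + 1) → ℝ) i : ℂ)) = (√(QR B.q K K / F.e) : ℝ) := by
        show f _ ^ (2⁻¹ : ℂ) = _
        rw [fr, cpow_real a1.le]
      simp only [J, sl, m2, P301Z.Fr.j, P301Z.Fr.v', rc_smul, rc_sub, QC_rc, vv, ml]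
      rw [show kap H (fun i => ((Fin.cons x y : Fin (b + 1) → ℝ) i : ℂ)) = rc K from
        kap_real _ _ _, smul_sub ((√(QR B.q K K / F.e) : ℝ) : ℂ), smul_smul, smul_smul,
        ← ofReal_mul (√(QR B.q K K / F.e)), mul_inv_cancel₀ hs.ne', mul_comm I]
      simp
  · have h4 := G.onto (u := u₁) (by rw [m1, ofReal_re]; exact hμ)
      (image_mem_map (ball_mem_nhds u₁ hρ))
    filter_upwards [eventually_nhdsWithin_iff.1 h4] with w hw w1 w2
    obtain ⟨y, hy, e⟩ := hw ⟨by rw [← qC_eq]; exact w1, by rw [← qC_eq]; exact w2⟩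
    exact ⟨y, hy, 1, one_ne_zero, by rw [one_smul]; exact e⟩

theorem lin : LIN := by
  intro n r B p k l N N' hpp hpb hpk hk hpl hll hlk hN hN'
  have sy := QR_symm B.symm
  rw [qC_eq] at hpp hpb hpk hpl
  rw [qR_eq] at hk hll hlk
  obtain ⟨a1, a2⟩ := iso_of B.symm hpp
  rw [herm_eq B.symm, ofReal_re] at hpb
  let O : Set ((Fin r → ℝ) × (Fin r → ℝ) × (Fin r → ℝ)) :=
    {x | rc x.1 + I • rc x.2.1 ∈ interior N ∧ x.2.2 ∈ interior N'}
  have hO : O ∈ 𝓝 (reV p, imV p, k) := by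
    have c1 : Continuous fun x : (Fin r → ℝ) × (Fin r → ℝ) × (Fin r → ℝ) =>
        rc x.1 + I • rc x.2.1 := by
      unfold rc
      fun_prop
    refine ((isOpen_interior.preimage c1).inter
      (isOpen_interior.preimage (continuous_snd.snd))).mem_nhds ⟨?_, mem_interior_iff_mem_nhds.2 hN'⟩
    show rc (reV p) + I • rc (imV p) ∈ interior N
    rw [← re_add_im]
    exact mem_interior_iff_mem_nhds.2 hN
  obtain ⟨v, z, κ, μ, T, rv, rz, -, vl, vv, zl, zv, zz, κl, κv, κz, hμ, hκ, hT, hO1, hO2⟩ :=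
    frame (QR B.q) sy (QR_rt B.q) (QR_cont B.q) (rt_zr l) hll
      (by rw [sy]; exact (perp_of _ hpl).1) (by rw [sy]; exact (perp_of _ hpl).2)
      (by rw [sy]; exact (perp_of _ hpk).1) (by rw [sy]; exact (perp_of _ hpk).2) a2 a1
      (by linarith) hk (by rw [sy]; exact hlk) O hO
  obtain ⟨a, vI, ha, hv⟩ := rv.exists_int
  obtain ⟨c, mI, hc, hm⟩ := rz.exists_int
  have hv' : zr vI = (a : ℝ) • v := hv
  have hm' : zr mI = (c : ℝ) • z := hm
  have ha' : (0 : ℝ) < a := by exact_mod_cast ha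
  have hc' : (0 : ℝ) < c := by exact_mod_cast hc
  let F : P301Z.Fr B :=
    { l := l, m := mI, v := vI, D := c * QR B.q z (zr l), e := a ^ 2 * QR B.q v v
      Dpos := by positivity
      epos := by positivity
      ll := by rw [qR_eq, hll]
      lm := by simp [qR_eq, hm', sy (zr l) z]
      lv := by simp [qR_eq, hv', sy (zr l) v, vl]
      mm := by simp [qR_eq, hm', zz]
      mv := by simp [qR_eq, hm', hv', zv]
      vv := by simp [qR_eq, hv']; ring }
  refine ⟨F, rfl, slice F (κ := κ) (μ := μ / a) (T := c * T / a) (c₁ := (c : ℝ)⁻¹) κl ?_ ?_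
    (by positivity) ?_ (by positivity) (by positivity) ?_ ?_⟩
  · simp [F, hv', κv]
  · simp [F, hm', κz]
  · simp only [F, hκ]
    field_simp
  · have : rc κ - (I * (μ / a : ℝ)) • rc (zr F.v) = rc κ + I • rc (-μ • v) := by
      have h0 : (a : ℂ) ≠ 0 := by exact_mod_cast ha.ne'
      simp only [F, hv', rc_smul, smul_smul, sub_eq_add_neg, ← neg_smul]
      push_cast
      field_simp
    rw [this]
    exact mem_interior_iff_mem_nhds.1 hO1
  · have : (c : ℝ)⁻¹ • F.re ((c * T / a : ℝ) * I) =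
        z + (QR B.q v v * T ^ 2 / (2 * QR B.q z (zr l))) • zr l := by
      ext i
      have e1 : ((F.e : ℂ) * (((c * T / a : ℝ) : ℂ) * I) ^ 2 / (2 * (F.D : ℂ))) =
          ((-(c * (QR B.q v v * T ^ 2 / (2 * QR B.q z (zr l)))) : ℝ) : ℂ) := by
        have h0 : (a : ℂ) ≠ 0 := by exact_mod_cast ha.ne'
        have h1 : (c : ℂ) ≠ 0 := by exact_mod_cast hc.ne'
        have h2 : ((QR B.q z (zr l) : ℝ) : ℂ) ≠ 0 := by exact_mod_cast zl.ne'
        simp only [F, mul_pow, I_sq]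
        push_cast
        field_simp
      simp only [P301Z.Fr.re, P301Z.Fr.p, e1, Pi.smul_apply, Pi.add_apply, Pi.sub_apply, rc,
        smul_eq_mul]
      simp only [F, hm', Pi.smul_apply, smul_eq_mul, sub_re, add_re, mul_re, ofReal_re, ofReal_im,
        I_re, I_im, mul_im]
      field_simp
      ring
    rw [this]
    exact mem_interior_iff_mem_nhds.1 hO2

end Vale.Agent.P301Z.Li
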