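import Vale.Agent.P301Z.Li.Frame

/-! P301, block LIN: an integral basis of the orthogonal complement of a rational frame. -/

open scoped Topology
open Filter Set

noncomputable section

namespace Vale.Agent.P301Z.Li

variable {r : ℕ}

theorem Rt.exists_int {x : Fin r → ℝ} (hx : Rt x) :
    ∃ (N : ℕ) (k : Fin r → ℤ), 0 < N ∧ (fun i => (k i : ℝ)) = (N : ℝ) • x := by
  choose a ha using hx
  refine ⟨∏ i, (a i).den, fun i => (a i).num * ∏ j ∈ Finset.univ.erase i, ((a j).den : ℤ),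
    Finset.prod_pos fun i _ => (a i).den_pos, funext fun i => ?_⟩
  have h1 : x i = (a i : ℝ) := (ha i).symm
  have h2 : ((a i).num : ℝ) = (a i).den * (a i : ℝ) := by
    have := Rat.den_mul_eq_num (a i)
    exact_mod_cast this.symm
  rw [Pi.smul_apply, smul_eq_mul, h1, ← Finset.mul_prod_erase _ _ (Finset.mem_univ i)]
  push_cast
  rw [h2]
  ring

/-- the projection along the frame -/
def prj (Q : (Fin r → ℝ) →ₗ[ℝ] (Fin r → ℝ) →ₗ[ℝ] ℝ) (l v z : Fin r → ℝ) :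
    (Fin r → ℝ) →ₗ[ℝ] (Fin r → ℝ) :=
  LinearMap.id - ((Q z l)⁻¹ • Q z).smulRight l - ((Q z l)⁻¹ • Q l).smulRight z -
    ((Q v v)⁻¹ • Q v).smulRight v

theorem prj_apply (Q : (Fin r → ℝ) →ₗ[ℝ] (Fin r → ℝ) →ₗ[ℝ] ℝ) (l v z x : Fin r → ℝ) :
    prj Q l v z x = x - ((Q z l)⁻¹ * Q z x) • l - ((Q z l)⁻¹ * Q l x) • z -
      ((Q v v)⁻¹ * Q v x) • v := rfl

theorem basis (Q : (Fin r → ℝ) →ₗ[ℝ] (Fin r → ℝ) →ₗ[ℝ] ℝ) (hs : ∀ x y, Q x y = Q y x)
    (hr : ∀ x y, Rt x → Rt y → Q x y ∈ KQ) {l v z : Fin r → ℝ} (hl : Rt l) (hv : Rt v)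
    (hz : Rt z) (hll : Q l l = 0) (hvl : Q v l = 0) (he : Q v v ≠ 0) (hD : Q z l ≠ 0)
    (hzv : Q z v = 0) (hzz : Q z z = 0) :
    ∃ (b : ℕ) (h : Fin b → Fin r → ℤ),
      (∀ a, Q (fun i => (h a i : ℝ)) l = 0 ∧ Q (fun i => (h a i : ℝ)) v = 0 ∧
        Q (fun i => (h a i : ℝ)) z = 0) ∧
      LinearIndependent ℝ (fun a i => (h a i : ℝ)) ∧
      ∀ κ, Q κ l = 0 → Q κ v = 0 → Q κ z = 0 →
        κ ∈ Submodule.span ℝ (range fun a i => (h a i : ℝ)) := by
  have hp : ∀ x, Q (prj Q l v z x) l = 0 ∧ Q (prj Q l v z x) v = 0 ∧ Q (prj Q l v z x) z = 0 := by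
    intro x
    simp only [prj_apply, map_sub, map_smul, LinearMap.sub_apply, LinearMap.smul_apply,
      smul_eq_mul, hll, hvl, hzv, hzz, hs l v, hs l z, hs v z, hs x]
    refine ⟨?_, ?_, ?_⟩ <;> field_simp <;> ring
  have hrt : ∀ i, Rt (prj Q l v z (Pi.single i 1)) := fun i => by
    rw [prj_apply]
    exact (((rt_single i).sub_smul hl (KQ.mul_mem (KQ.inv_mem (hr _ _ hz hl))
      (hr _ _ hz (rt_single i)))).sub_smul hz (KQ.mul_mem (KQ.inv_mem (hr _ _ hz hl))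
      (hr _ _ hl (rt_single i)))).sub_smul hv (KQ.mul_mem (KQ.inv_mem (hr _ _ hv hv))
      (hr _ _ hv (rt_single i)))
  choose N g hN hg using fun i => (hrt i).exists_int
  obtain ⟨κ', a, ha, hsp, hli⟩ := exists_linearIndependent' ℝ (fun i j => (g i j : ℝ))
  haveI : Finite κ' := Finite.of_injective a ha
  obtain ⟨b, ⟨E⟩⟩ := Finite.exists_equiv_fin κ'
  refine ⟨b, fun c => g (a (E.symm c)), fun c => ?_, hli.comp E.symm E.symm.injective,
    fun κ h1 h2 h3 => ?_⟩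
  · rw [hg]
    simp [hp]
  · have e1 : (range fun c j => (g (a (E.symm c)) j : ℝ)) =
        range ((fun i j => (g i j : ℝ)) ∘ a) :=
      E.symm.surjective.range_comp ((fun i j => (g i j : ℝ)) ∘ a)
    rw [e1, hsp]
    have e2 : κ = prj Q l v z κ := by
      rw [prj_apply, hs z κ, hs l κ, hs v κ, h1, h2, h3]
      simp
    have e3 : κ = ∑ i, κ i • (Pi.single i 1 : Fin r → ℝ) := by
      ext j
      simp [Pi.single_apply]
    rw [e2, e3, map_sum]
    refine Submodule.sum_mem _ fun i _ => ?_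
    rw [map_smul]
    refine Submodule.smul_mem _ _ ?_
    have e4 : prj Q l v z (Pi.single i 1) = ((N i : ℝ))⁻¹ • fun j => (g i j : ℝ) := by
      rw [hg, smul_smul, inv_mul_cancel₀ (by exact_mod_cast (hN i).ne'), one_smul]
    rw [e4]
    exact Submodule.smul_mem _ _ (Submodule.subset_span ⟨i, rfl⟩)

end Vale.Agent.P301Z.Li
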