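import Mathlib

/-! P301, block LIN: a rational frame close to a given positive three-frame. -/

open scoped Topology
open Filter Set

noncomputable section

namespace Vale.Agent.P301Z.Li

/-- the rational numbers in the reals -/
def KQ : Subfield ℝ := (Rat.castHom ℝ).fieldRange

/-- rational vectors -/
def Rt {r : ℕ} (x : Fin r → ℝ) : Prop := ∀ i, x i ∈ KQ

variable {r : ℕ}

theorem Rt.sub_smul {x y : Fin r → ℝ} (hx : Rt x) (hy : Rt y) {c : ℝ} (hc : c ∈ KQ) :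
    Rt (x - c • y) := fun i => KQ.sub_mem (hx i) (KQ.mul_mem hc (hy i))

theorem dense_KQ : Dense (KQ : Set ℝ) := by
  have h : (KQ : Set ℝ) = range ((↑) : ℚ → ℝ) := by
    ext x
    simp [KQ]
  rw [h]
  exact Rat.denseRange_cast

theorem dense_Rt : Dense {x : Fin r → ℝ | Rt x} := by
  have h := dense_pi (univ : Set (Fin r)) (s := fun _ => (KQ : Set ℝ)) fun _ _ => dense_KQ
  refine h.mono fun x hx => ?_
  intro i
  exact hx i (mem_univ i)

theorem rt_single (i : Fin r) : Rt (Pi.single i (1 : ℝ) : Fin r → ℝ) := by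
  intro j
  by_cases h : j = i
  · subst h
    simp
  · simp [h]

theorem exists_rt_ne (Q : (Fin r → ℝ) →ₗ[ℝ] (Fin r → ℝ) →ₗ[ℝ] ℝ) {l k : Fin r → ℝ}
    (h : Q l k ≠ 0) : ∃ g, Rt g ∧ Q l g ≠ 0 := by
  by_contra hc
  push Not at hc
  apply h
  have : Q l = 0 := LinearMap.pi_ext' fun i => by
    ext
    simpa using hc _ (rt_single i)
  simp [this]

theorem frame (Q : (Fin r → ℝ) →ₗ[ℝ] (Fin r → ℝ) →ₗ[ℝ] ℝ) (hs : ∀ x y, Q x y = Q y x)
    (hr : ∀ x y, Rt x → Rt y → Q x y ∈ KQ)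
    (hc : Continuous fun p : (Fin r → ℝ) × (Fin r → ℝ) => Q p.1 p.2)
    {l A B k : Fin r → ℝ} (hl : Rt l) (hll : Q l l = 0) (hlA : Q l A = 0) (hlB : Q l B = 0)
    (hkA : Q k A = 0) (hkB : Q k B = 0) (hAB : Q A B = 0) (hA : Q A A = Q B B) (hB : 0 < Q B B)
    (hk : 0 < Q k k) (hkl : 0 < Q k l)
    (O : Set ((Fin r → ℝ) × (Fin r → ℝ) × (Fin r → ℝ))) (hO : O ∈ 𝓝 (A, B, k)) :
    ∃ (v z κ : Fin r → ℝ) (μ T : ℝ), Rt v ∧ Rt z ∧ Rt κ ∧ Q v l = 0 ∧ 0 < Q v v ∧ 0 < Q z l ∧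
      Q z v = 0 ∧ Q z z = 0 ∧ Q κ l = 0 ∧ Q κ v = 0 ∧ Q κ z = 0 ∧ 0 < μ ∧
      Q κ κ = μ ^ 2 * Q v v ∧ 0 < T ∧
      (κ, -μ • v, z + (Q v v * T ^ 2 / (2 * Q z l)) • l) ∈ O := by
  obtain ⟨g, hg, hlg⟩ := exists_rt_ne Q (l := l) (k := k) (by rw [hs]; exact hkl.ne')
  let P := (Fin r → ℝ) × (Fin r → ℝ) × (Fin r → ℝ)
  let p0 : P := (A, -B, k)
  have cq : ∀ {f f' : P → Fin r → ℝ}, ContinuousAt f p0 → ContinuousAt f' p0 →
      ContinuousAt (fun p => Q (f p) (f' p)) p0 := fun {f f'} h h' =>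
    hc.continuousAt.comp (f := fun p => (f p, f' p)) (h.prodMk h')
  let v : P → Fin r → ℝ := fun p => p.2.1 - (Q l p.2.1 / Q l g) • g
  have v0 : v p0 = -B := by simp [v, p0, hlB]
  have c1 : ContinuousAt (fun p : P => p.1) p0 := continuousAt_fst
  have c2 : ContinuousAt (fun p : P => p.2.1) p0 := continuousAt_snd.fst
  have c3 : ContinuousAt (fun p : P => p.2.2) p0 := continuousAt_snd.snd
  have cv : ContinuousAt v p0 :=
    c2.sub (((cq continuousAt_const c2).div_const _).smul continuousAt_const)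
  have e0 : Q (v p0) (v p0) = Q B B := by simp [v0]
  let k' : P → Fin r → ℝ := fun p => p.2.2 - (Q p.2.2 (v p) / Q (v p) (v p)) • v p
  have k0 : k' p0 = k := by
    simp only [k', v0]
    simp [p0, hkB]
  have ck : ContinuousAt k' p0 :=
    c3.sub (((cq c3 cv).div (cq cv cv) (by rw [e0]; exact hB.ne')).smul cv)
  let z : P → Fin r → ℝ := fun p => k' p - (Q (k' p) (k' p) / (2 * Q (k' p) l)) • l
  have cz : ContinuousAt z p0 :=
    ck.sub (((cq ck ck).div (continuousAt_const.mul (cq ck continuousAt_const))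
      (by show 2 * Q (k' p0) l ≠ 0; rw [k0]; positivity)).smul continuousAt_const)
  have zl : ∀ p, Q (z p) l = Q (k' p) l := fun p => by simp [z, hll]
  let κ : P → Fin r → ℝ := fun p => p.1 - (Q p.1 (z p) / Q (z p) l) • l -
    (Q p.1 l / Q (z p) l) • z p - (Q p.1 (v p) / Q (v p) (v p)) • v p
  have d0 : Q (z p0) l ≠ 0 := by rw [zl, k0]; exact hkl.ne'
  have κ0 : κ p0 = A := by
    have h1 : Q A (z p0) = 0 := by
      simp only [z, k0]
      simp [hs A k, hkA, hs A l, hlA]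
    have h2 : p0.1 = A := rfl
    simp only [κ, h2, h1, v0]
    simp [hs A l, hlA, hAB]
  have cκ : ContinuousAt κ p0 :=
    ((c1.sub (((cq c1 cz).div (cq cz continuousAt_const) d0).smul continuousAt_const)).sub
      (((cq c1 continuousAt_const).div (cq cz continuousAt_const) d0).smul cz)).sub
      (((cq c1 cv).div (cq cv cv) (by rw [e0]; exact hB.ne')).smul cv)
  let μ : P → ℝ := fun p => √(Q (κ p) (κ p) / Q (v p) (v p))
  have μ0 : μ p0 = 1 := by simp only [μ, κ0, e0, hA, div_self hB.ne', Real.sqrt_one]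
  have cμ : ContinuousAt μ p0 :=
    ((cq cκ cκ).div (cq cv cv) (by rw [e0]; exact hB.ne')).sqrt
  have E1 : ∀ᶠ p in 𝓝 p0, 0 < Q (v p) (v p) :=
    (cq cv cv).eventually (lt_mem_nhds (by show 0 < Q (v p0) (v p0); rw [e0]; exact hB))
  have E2 : ∀ᶠ p in 𝓝 p0, 0 < Q (k' p) (k' p) :=
    (cq ck ck).eventually (lt_mem_nhds (by show 0 < Q (k' p0) (k' p0); rw [k0]; exact hk))
  have E3 : ∀ᶠ p in 𝓝 p0, 0 < Q (k' p) l :=
    (cq ck (f' := fun _ => l) continuousAt_const).eventually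
      (lt_mem_nhds (by show 0 < Q (k' p0) l; rw [k0]; exact hkl))
  have E4 : ∀ᶠ p in 𝓝 p0, 0 < Q (κ p) (κ p) :=
    (cq cκ cκ).eventually (lt_mem_nhds (by show 0 < Q (κ p0) (κ p0); rw [κ0, hA]; exact hB))
  have E5 : ∀ᶠ p in 𝓝 p0, (κ p, -μ p • v p, k' p) ∈ O := by
    have h := cκ.prodMk ((cμ.neg.smul cv).prodMk ck)
    refine h.eventually (p := fun x => x ∈ O) ?_
    simpa [κ0, μ0, v0, k0] using hO
  have hd : Dense ({x : Fin r → ℝ | Rt x} ×ˢ ({x : Fin r → ℝ | Rt x} ×ˢ {x : Fin r → ℝ | Rt x})) :=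
    dense_Rt.prod (dense_Rt.prod dense_Rt)
  obtain ⟨p, ⟨r1, r2, r3⟩, h1, h2, h3, h4, h5⟩ :=
    hd.inter_nhds_nonempty (E1.and (E2.and (E3.and (E4.and E5))))
  have rv : Rt (v p) := Rt.sub_smul r2 hg (KQ.div_mem (hr _ _ hl r2) (hr _ _ hl hg))
  have rk : Rt (k' p) := Rt.sub_smul r3 rv (KQ.div_mem (hr _ _ r3 rv) (hr _ _ rv rv))
  have two : (2 : ℝ) ∈ KQ := ⟨2, by simp⟩
  have rz : Rt (z p) :=
    Rt.sub_smul rk hl (KQ.div_mem (hr _ _ rk rk) (KQ.mul_mem two (hr _ _ rk hl)))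
  have rκ : Rt (κ p) :=
    Rt.sub_smul (Rt.sub_smul (Rt.sub_smul r1 hl (KQ.div_mem (hr _ _ r1 rz) (hr _ _ rz hl))) rz
      (KQ.div_mem (hr _ _ r1 hl) (hr _ _ rz hl))) rv (KQ.div_mem (hr _ _ r1 rv) (hr _ _ rv rv))
  have lv : Q l (v p) = 0 := by
    simp only [v, map_sub, map_smul, smul_eq_mul]
    field_simp
    ring
  have vl : Q (v p) l = 0 := by rw [hs, lv]
  have kv : Q (k' p) (v p) = 0 := by
    simp only [k', map_sub, map_smul, LinearMap.sub_apply, LinearMap.smul_apply, smul_eq_mul]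
    field_simp
    ring
  have zv : Q (z p) (v p) = 0 := by
    simp only [z, map_sub, map_smul, LinearMap.sub_apply, LinearMap.smul_apply, smul_eq_mul, kv, lv]
    ring
  have zz : Q (z p) (z p) = 0 := by
    simp only [z, map_sub, map_smul, LinearMap.sub_apply, LinearMap.smul_apply, smul_eq_mul, hll,
      hs l (k' p)]
    field_simp
    ring
  have dp : 0 < Q (z p) l := by rw [zl]; exact h3
  have hT : √(Q (k' p) (k' p) / Q (v p) (v p)) ^ 2 = Q (k' p) (k' p) / Q (v p) (v p) :=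
    Real.sq_sqrt (by positivity)
  refine ⟨v p, z p, κ p, μ p, √(Q (k' p) (k' p) / Q (v p) (v p)), rv, rz, rκ, vl, h1, dp, zv, zz,
    ?_, ?_, ?_, Real.sqrt_pos.2 (by positivity), ?_, Real.sqrt_pos.2 (by positivity), ?_⟩
  · simp only [κ, map_sub, map_smul, LinearMap.sub_apply, LinearMap.smul_apply, smul_eq_mul, hll, vl]
    field_simp
    ring
  · simp only [κ, map_sub, map_smul, LinearMap.sub_apply, LinearMap.smul_apply, smul_eq_mul, lv, zv]
    field_simp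
    ring
  · simp only [κ, map_sub, map_smul, LinearMap.sub_apply, LinearMap.smul_apply, smul_eq_mul, zz,
      hs l (z p), hs (v p) (z p), zv]
    field_simp
    ring
  · simp only [μ]
    rw [Real.sq_sqrt (by positivity)]
    field_simp
  · have : z p + (Q (v p) (v p) * √(Q (k' p) (k' p) / Q (v p) (v p)) ^ 2 / (2 * Q (z p) l)) • l =
        k' p := by
      rw [hT, zl, mul_div_cancel₀ _ h1.ne']
      simp [z]
    rw [this]
    exact h5

end Vale.Agent.P301Z.Li
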