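import Vale.Agent.P301Z.Li.Q

/-! P301, block LIN: the slice and its local inverse. -/

open scoped Topology Matrix
open Filter Set Complex

noncomputable section

namespace Vale.Agent.P301Z.Li

variable {r b : ℕ} (Q : (Fin r → ℂ) →ₗ[ℂ] (Fin r → ℂ) →ₗ[ℂ] ℂ) (l v z : Fin r → ℂ)
  (h : Fin b → Fin r → ℂ)

/-- the component in `P` -/
def kap (u : Fin (b + 1) → ℂ) : Fin r → ℂ := ∑ a, u a.succ • h a

/-- the length of the component in `P` -/
def mu (u : Fin (b + 1) → ℂ) : ℂ := (Q (kap h u) (kap h u) / Q v v) ^ (2⁻¹ : ℂ)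

/-- the slice -/
def sl (u : Fin (b + 1) → ℂ) : Fin r → ℂ :=
  kap h u - (I * mu Q v h u) • (v - (Q v v * u 0 / Q z l) • l)

/-- the relations of the frame -/
structure Fr : Prop where
  sy : ∀ x y, Q x y = Q y x
  ll : Q l l = 0
  vl : Q v l = 0
  zv : Q z v = 0
  zz : Q z z = 0
  e : Q v v ≠ 0
  D : Q z l ≠ 0
  hl : ∀ a, Q (h a) l = 0
  hv : ∀ a, Q (h a) v = 0
  hz : ∀ a, Q (h a) z = 0
  li : LinearIndependent ℂ h
  sp : ∀ κ, Q κ l = 0 → Q κ v = 0 → Q κ z = 0 → κ ∈ Submodule.span ℂ (range h)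

variable {Q l v z h}

theorem kap_perp {x : Fin r → ℂ} (hx : ∀ a, Q (h a) x = 0) (u : Fin (b + 1) → ℂ) :
    Q (kap h u) x = 0 := by
  simp [kap, map_sum, LinearMap.sum_apply, hx]

theorem mu_sq (u : Fin (b + 1) → ℂ) : mu Q v h u ^ 2 = Q (kap h u) (kap h u) / Q v v := by
  have := cpow_nat_inv_pow (Q (kap h u) (kap h u) / Q v v) (n := 2) two_ne_zero
  exact this

theorem Fr.sl_l (F : Fr Q l v z h) (u : Fin (b + 1) → ℂ) : Q (sl Q l v z h u) l = 0 := by
  simp [sl, kap_perp F.hl, F.vl, F.ll]

theorem Fr.sl_sl (F : Fr Q l v z h) (u : Fin (b + 1) → ℂ) :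
    Q (sl Q l v z h u) (sl Q l v z h u) = 0 := by
  have h1 := mu_sq (Q := Q) (v := v) (h := h) u
  have he := F.e
  simp only [sl, map_sub, map_smul, LinearMap.sub_apply, LinearMap.smul_apply, smul_eq_mul,
    kap_perp F.hl, kap_perp F.hv, F.sy v (kap h u), F.sy l (kap h u), F.vl, F.ll, F.sy l v]
  rw [eq_div_iff he] at h1
  linear_combination (-1 : ℂ) * h1 + (mu Q v h u ^ 2 * Q v v) * I_sq

theorem diff_kap : Differentiable ℂ (kap h) := by
  unfold kap
  fun_prop

theorem diff_Q {E : Type} [NormedAddCommGroup E] [NormedSpace ℂ E] {f g : E → Fin r → ℂ} {x : E}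
    (hf : DifferentiableAt ℂ f x) (hg : DifferentiableAt ℂ g x) :
    DifferentiableAt ℂ (fun y => Q (f y) (g y)) x := by
  let Q' : (Fin r → ℂ) →L[ℂ] (Fin r → ℂ) →L[ℂ] ℂ :=
    LinearMap.toContinuousLinearMap
      ((LinearMap.toContinuousLinearMap : ((Fin r → ℂ) →ₗ[ℂ] ℂ) ≃ₗ[ℂ] _).toLinearMap ∘ₗ Q)
  exact (Q'.differentiableAt.comp x hf).clm_apply hg

theorem diff_Qd {E : Type} [NormedAddCommGroup E] [NormedSpace ℂ E] {f g : E → Fin r → ℂ} {x : E}
    (hf : DifferentiableAt ℂ f x) (hg : DifferentiableAt ℂ g x) (c : ℂ) :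
    DifferentiableAt ℂ (fun y => Q (f y) (g y) / c) x := by
  simp only [div_eq_mul_inv]
  exact (diff_Q hf hg).mul_const _

theorem diff_mu {u : Fin (b + 1) → ℂ} (hu : Q (kap h u) (kap h u) / Q v v ∈ slitPlane) :
    DifferentiableAt ℂ (mu Q v h) u := by
  have h1 := diff_Qd (Q := Q) (diff_kap (h := h) u) (diff_kap (h := h) u) (Q v v)
  exact h1.cpow_const hu

theorem diff_sl {u : Fin (b + 1) → ℂ} (hu : Q (kap h u) (kap h u) / Q v v ∈ slitPlane) :
    DifferentiableAt ℂ (sl Q l v z h) u := by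
  have h1 := diff_mu hu
  have h2 := diff_kap (h := h) u
  unfold sl
  fun_prop

theorem cpow_half {w : ℂ} (hw : 0 < w.re) : (w ^ 2) ^ (2⁻¹ : ℂ) = w := by
  have h := pow_cpow_nat_inv (x := w) (n := 2) two_ne_zero
    (by have := neg_pi_div_two_lt_arg_iff.2 (Or.inl hw); push_cast; linarith)
    (by have := arg_le_pi_div_two_iff.2 (Or.inl hw.le); push_cast; linarith)
  simpa using h

/-- the slice is locally onto the cone -/
theorem Fr.onto (F : Fr Q l v z h) {u : Fin (b + 1) → ℂ} (hu : 0 < (mu Q v h u).re) :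
    𝓝[{p | Q p p = 0 ∧ Q p l = 0}] (sl Q l v z h u) ≤ map (sl Q l v z h) (𝓝 u) := by
  obtain ⟨c, hc⟩ := (Fintype.linearCombination ℂ h).exists_leftInverse_of_injective
    (LinearMap.ker_eq_bot.2 F.li.fintypeLinearCombination_injective)
  have hc' : ∀ y : Fin b → ℂ, c (∑ a, y a • h a) = y := fun y => by
    have := LinearMap.congr_fun hc y
    simpa [Fintype.linearCombination_apply] using this
  have he := F.e
  have hD := F.D
  let β : (Fin r → ℂ) → ℂ := fun p => Q p v / Q v v
  let α : (Fin r → ℂ) → ℂ := fun p => Q p z / Q z l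
  let κ : (Fin r → ℂ) → Fin r → ℂ := fun p => p - α p • l - β p • v
  let g : (Fin r → ℂ) → Fin (b + 1) → ℂ := fun p =>
    Fin.cons (-(α p * Q z l) / (β p * Q v v)) (c (κ p))
  have dβ : Differentiable ℂ β := fun p =>
    diff_Qd (Q := Q) (f := fun y => y) (g := fun _ => v) differentiableAt_id
      (differentiableAt_const _) _
  have dα : Differentiable ℂ α := fun p =>
    diff_Qd (Q := Q) (f := fun y => y) (g := fun _ => z) differentiableAt_id
      (differentiableAt_const _) _
  have hμ : mu Q v h u ≠ 0 := fun h0 => by simp [h0] at hu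
  have β0 : β (sl Q l v z h u) = -(I * mu Q v h u) := by
    simp only [β, sl, map_sub, map_smul, LinearMap.sub_apply, LinearMap.smul_apply, smul_eq_mul,
      kap_perp F.hv, F.sy l v, F.vl]
    field_simp
    ring
  have α0 : α (sl Q l v z h u) = I * mu Q v h u * (Q v v * u 0 / Q z l) := by
    simp only [α, sl, map_sub, map_smul, LinearMap.sub_apply, LinearMap.smul_apply, smul_eq_mul,
      kap_perp F.hz, F.sy l z, F.sy v z, F.zv]
    field_simp
    ring
  have κ0 : κ (sl Q l v z h u) = kap h u := by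
    simp only [κ, β0, α0]
    simp only [sl]
    module
  have g0 : g (sl Q l v z h u) = u := by
    ext i
    refine Fin.cases ?_ (fun a => ?_) i
    · simp only [g, Fin.cons_zero, β0, α0]
      field_simp
    · simp only [g, Fin.cons_succ, κ0, kap, hc']
  have cg : ContinuousAt g (sl Q l v z h u) := by
    refine continuousAt_pi.2 fun i => Fin.cases ?_ (fun a => ?_) i
    · simp only [g, Fin.cons_zero]
      refine ((dα.continuous.continuousAt.mul continuousAt_const).neg).div
        (dβ.continuous.continuousAt.mul continuousAt_const) ?_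
      show β _ * Q v v ≠ 0
      rw [β0]
      simp [hμ, he]
    · simp only [g, Fin.cons_succ]
      have h1 : Continuous κ :=
        (continuous_id.sub (dα.continuous.smul continuous_const)).sub
          (dβ.continuous.smul continuous_const)
      exact ((continuous_apply a).comp (c.continuous_of_finiteDimensional.comp h1)).continuousAt
  have E : ∀ᶠ p in 𝓝 (sl Q l v z h u), 0 < (I * β p).re := by
    have h1 : Continuous fun p => (I * β p).re :=
      continuous_re.comp (continuous_const.mul dβ.continuous)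
    refine h1.continuousAt.eventually (lt_mem_nhds ?_)
    show 0 < (I * β _).re
    rw [β0, show I * -(I * mu Q v h u) = mu Q v h u by
      linear_combination (-mu Q v h u) * I_sq]
    exact hu
  have key : ∀ᶠ p in 𝓝[{p | Q p p = 0 ∧ Q p l = 0}] (sl Q l v z h u),
      sl Q l v z h (g p) = p := by
    filter_upwards [nhdsWithin_le_nhds E, self_mem_nhdsWithin] with p hp ⟨hpp, hpl⟩
    have k1 : Q (κ p) l = 0 := by simp [κ, hpl, F.ll, F.vl]
    have k2 : Q (κ p) v = 0 := by
      simp only [κ, β, map_sub, map_smul, LinearMap.sub_apply, LinearMap.smul_apply, smul_eq_mul,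
        F.sy l v, F.vl]
      field_simp
      ring
    have k3 : Q (κ p) z = 0 := by
      simp only [κ, α, map_sub, map_smul, LinearMap.sub_apply, LinearMap.smul_apply, smul_eq_mul,
        F.sy l z, F.sy v z, F.zv]
      field_simp
      ring
    obtain ⟨y, hy⟩ := (Submodule.mem_span_range_iff_exists_fun ℂ).1 (F.sp _ k1 k2 k3)
    have k4 : kap h (g p) = κ p := by
      simp only [kap, g, Fin.cons_succ]
      rw [← hy, hc']
    have hb : β p ≠ 0 := fun h0 => by simp [h0] at hp
    have k5 : p = κ p + α p • l + β p • v := by simp only [κ]; module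
    have k6 : Q (κ p) (κ p) / Q v v = (I * β p) ^ 2 := by
      rw [k5] at hpp
      simp only [map_add, map_smul, LinearMap.add_apply, LinearMap.smul_apply, smul_eq_mul, k1, k2,
        F.sy l (κ p), F.sy v (κ p), F.ll, F.vl, F.sy l v] at hpp
      rw [div_eq_iff he]
      linear_combination hpp - (β p ^ 2 * Q v v) * I_sq
    have k7 : mu Q v h (g p) = I * β p := by rw [mu, k4, k6, cpow_half hp]
    have k8 : Q v v * g p 0 / Q z l = -(α p / β p) := by
      simp only [g, Fin.cons_zero]
      field_simp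
    rw [sl, k4, k7, k8, show I * (I * β p) = -β p by linear_combination (β p) * I_sq]
    conv_rhs => rw [k5]
    rw [neg_smul, neg_smul, sub_neg_eq_add, sub_neg_eq_add, smul_add, smul_smul,
      mul_div_cancel₀ _ hb]
    abel
  intro S hS
  have h1 : ∀ᶠ p in 𝓝 (sl Q l v z h u), sl Q l v z h (g p) ∈ S := by
    have := cg.tendsto
    rw [g0] at this
    exact this hS
  filter_upwards [key, nhdsWithin_le_nhds h1] with p h2 h3
  rwa [h2] at h3

end Vale.Agent.P301Z.Li
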